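import Mathlib
import Vale.Agent.P095.NU.Final
import Vale.Agent.P095.Witness

/-!
# P095: actions of amenable groups on Z-stable algebras absorb the trivial action on `Z`
-/

namespace Vale.Agent.Results.P095.ZStableActions

open TopologicalSpace Vale.Agent.P101.JS Vale.Agent.P095
open scoped MultiplierAlgebra

universe u v

theorem result : ∃ W : ∀ m, Frame m, IsJSFrame W ∧
    (∃ (L : Type) (_ : NonUnitalCStarAlgebra L),
      Nontrivial L ∧ SeparableSpace L ∧ NU.IsTensorLimit L W) ∧
    ∀ (A : Type u) [NonUnitalCStarAlgebra A] [SeparableSpace A], NU.IsTensorLimit A W →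
      ∀ (G : Type v) [Group G] [Countable G], Elem.Folner G →
        ∀ (α : G → A → A) (hα : NU.IsAction α),
          ∃ (ι : ∀ m, Stage A m → A) (w : G → unitary 𝓜(ℂ, A)), NU.IsLimitMaps W ι ∧
            (∀ g k, (w (g * k) : 𝓜(ℂ, A)) =
              (w g : 𝓜(ℂ, A)) * NU.Mult.extAct (NU.autOf hα g) (w k : 𝓜(ℂ, A))) ∧
            ∀ g m (f : Stage A m), InStage m f →
              (ι m (mapStage (α g) f) : 𝓜(ℂ, A)) =
                (w g : 𝓜(ℂ, A)) * (α g (ι m f) : 𝓜(ℂ, A)) * star (w g : 𝓜(ℂ, A)) :=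
  ⟨frame, isJSFrame, Witness.exists_nu_tensorLimit, fun A _ _ h G _ _ hG α hα =>
    NU.exists_multiplier_form hα (NU.equivariant_of_tensorLimit A h G hG α hα)⟩

end Vale.Agent.Results.P095.ZStableActions
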